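import Vale.Agent.Lib.P249.Main2
import Vale.Agent.Lib.P249M.LogForm

namespace Vale.Agent.Results.P249.Combined

open Vale.Agent.Lib.P249 Vale.Agent.Lib.P249M

/-- Two-sided bounds for dimension reduction in `ℓ_p`, `p ≥ 2`.
(1) Upper bound: any `n` points of any `ℓ_p^m` are mapped with distortion at most `D` into `ℓ_p^d`,
by a linear map, for one `d ≤ 32 p 9^p ((D^p+1)/(D^p-1))^2 n log(2 n^2) + 1`; hence `d_p(n, D)` is
at most this bound.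
(2) Lower bound: if `(k+1)^k ≤ n` there is an `n`-point subset `y` of some `ℓ_p^m` (the same for all
`p`, `D`) such that every map of `y` into `ℓ_p^d` with distortion at most `D` needs
`d ≥ k^(p/2) / (81 p^2 D)^p`; hence `d_p(n, D) ≥ k^(p/2) / (81 p^2 D)^p`.
(3) One may take for `k` the integer part of `log n / log log n` as soon as `log log n ≥ 2`. -/
theorem result :
    (∀ (p D : ℝ) (n : ℕ), 2 ≤ p → 1 < D → 1 ≤ n →
      (∃ d : ℕ,
        (d : ℝ) ≤ 32 * p * 9 ^ p * ((D ^ p + 1) / (D ^ p - 1)) ^ 2 * n *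
          Real.log (2 * (n : ℝ) ^ 2) + 1 ∧
        ∀ (m : ℕ) (x : Fin n → Fin m → ℝ), LinearlyEmbedsInto p D x d) ∧
      (dimRed p n D : ℝ) ≤ 32 * p * 9 ^ p * ((D ^ p + 1) / (D ^ p - 1)) ^ 2 * n *
          Real.log (2 * (n : ℝ) ^ 2) + 1) ∧
    (∀ n k : ℕ, (k + 1) ^ k ≤ n → ∃ (m : ℕ) (y : Fin n → Fin m → ℝ), Function.Injective y ∧
      ∀ (p D : ℝ) (d : ℕ), 2 ≤ p → 0 < D → EmbedsInto p D y d →
        (k : ℝ) ^ (p / 2) / (81 * p ^ 2 * D) ^ p ≤ d) ∧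
    (∀ (p D : ℝ) (n k : ℕ), 2 ≤ p → 1 < D → (k + 1) ^ k ≤ n →
      (k : ℝ) ^ (p / 2) / (81 * p ^ 2 * D) ^ p ≤ dimRed p n D) ∧
    (∀ (p D : ℝ) (n : ℕ), 2 ≤ p → 1 < D → 2 ≤ Real.log (Real.log n) →
      ((⌊Real.log n / Real.log (Real.log n)⌋₊ : ℕ) : ℝ) ^ (p / 2) / (81 * p ^ 2 * D) ^ p
        ≤ dimRed p n D) := by
  refine ⟨?_, fun n k h => exists_hard_set2 n k h,
    fun p D n k hp hD h => dimRed_lower2 p D hp hD n k h,
    fun p D n hp hD h => dimRed_lower_log p D hp hD n h⟩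
  intro p D n hp hD hn
  refine ⟨⟨⌊dimBound' p D n⌋₊ + 1, ?_, fun m x => embedsInto_dimBound' p D hp hD n hn m x⟩,
    dimRed_le' p D hp hD n hn⟩
  have h := Nat.floor_le (dimBound'_nonneg p D hp n hn)
  have h2 : ((⌊dimBound' p D n⌋₊ + 1 : ℕ) : ℝ) = (⌊dimBound' p D n⌋₊ : ℝ) + 1 := by push_cast; ring
  rw [h2]
  exact add_le_add h le_rfl

end Vale.Agent.Results.P249.Combined
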