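import Vale.Agent.Lib.P249.Main2

namespace Vale.Agent.Results.P249.NLogN

open Vale.Agent.Lib.P249

/-- Dimension reduction in `ℓ_p`, `p ≥ 2`, to dimension `O(n log n)` for every distortion `D > 1`:
any `n` points of any `ℓ_p^m` are mapped with distortion at most `D` into `ℓ_p^d`, by a linear map,
for one `d ≤ 32 p 9^p ((D^p+1)/(D^p-1))^2 n log(2 n^2) + 1` depending only on `p, D, n`;
hence `d_p(n, D)` is at most this bound. -/
theorem result (p D : ℝ) (hp : 2 ≤ p) (hD : 1 < D) (n : ℕ) (hn : 1 ≤ n) :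
    (∃ d : ℕ,
      (d : ℝ) ≤ 32 * p * 9 ^ p * ((D ^ p + 1) / (D ^ p - 1)) ^ 2 * n *
        Real.log (2 * (n : ℝ) ^ 2) + 1 ∧
      ∀ (m : ℕ) (x : Fin n → Fin m → ℝ), LinearlyEmbedsInto p D x d) ∧
    (dimRed p n D : ℝ) ≤ 32 * p * 9 ^ p * ((D ^ p + 1) / (D ^ p - 1)) ^ 2 * n *
        Real.log (2 * (n : ℝ) ^ 2) + 1 := by
  refine ⟨⟨⌊dimBound' p D n⌋₊ + 1, ?_, fun m x => embedsInto_dimBound' p D hp hD n hn m x⟩,
    dimRed_le' p D hp hD n hn⟩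
  have h := Nat.floor_le (dimBound'_nonneg p D hp n hn)
  have h2 : ((⌊dimBound' p D n⌋₊ + 1 : ℕ) : ℝ) = (⌊dimBound' p D n⌋₊ : ℝ) + 1 := by push_cast; ring
  rw [h2]
  exact add_le_add h le_rfl

end Vale.Agent.Results.P249.NLogN
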