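import Vale.Agent.Lib.P249L.Final

namespace Vale.Agent.Results.P249.SuperLog

open Vale.Agent.Lib.P249 Vale.Agent.Lib.P249L

/-- A lower bound for dimension reduction in `ℓ_p`, `p ≥ 2`, which is superlogarithmic for `p > 4`.
If `2 ^ k ≤ n` there is an `n`-point subset `y` of some `ℓ_p^m` (the same set of vectors for all
`p` and `D`) such that every map of `y` into `ℓ_p^d` with distortion at most `D` needs
`d ≥ k^(p/4) / (6 p^2 D)^p`.  Hence `d_p(n, D) ≥ (log_2 n rounded down)^(p/4) / (6 p^2 D)^p`. -/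
theorem result :
    (∀ n k : ℕ, 2 ^ k ≤ n → ∃ (m : ℕ) (y : Fin n → Fin m → ℝ), Function.Injective y ∧
      ∀ (p D : ℝ) (d : ℕ), 2 ≤ p → 0 < D → EmbedsInto p D y d →
        (k : ℝ) ^ (p / 4) / (6 * p ^ 2 * D) ^ p ≤ d) ∧
    (∀ (p D : ℝ) (n : ℕ), 2 ≤ p → 1 < D → 1 ≤ n →
      ((Nat.log 2 n : ℕ) : ℝ) ^ (p / 4) / (6 * p ^ 2 * D) ^ p ≤ dimRed p n D) := by
  refine ⟨fun n k h => exists_hard_set n k h, ?_⟩
  intro p D n hp hD hn
  exact dimRed_lower p D hp hD n (Nat.log 2 n) (Nat.pow_log_le_self 2 (by omega))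

end Vale.Agent.Results.P249.SuperLog
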