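import Vale.Agent.Lib.P249M.LogForm

namespace Vale.Agent.Results.P249.SuperLogAllP

open Vale.Agent.Lib.P249 Vale.Agent.Lib.P249M

/-- A lower bound for dimension reduction in `ℓ_p` which is superlogarithmic for every `p > 2`.
If `(k+1)^k ≤ n` there is an `n`-point subset `y` of some `ℓ_p^m` (the same set of vectors for all
`p` and `D`) such that every map of `y` into `ℓ_p^d` with distortion at most `D` needs
`d ≥ k^(p/2) / (81 p^2 D)^p`.  Hence `d_p(n, D) ≥ k^(p/2) / (81 p^2 D)^p`, and one may take for `k`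
the integer part of `log n / log log n` as soon as `log log n ≥ 2`. -/
theorem result :
    (∀ n k : ℕ, (k + 1) ^ k ≤ n → ∃ (m : ℕ) (y : Fin n → Fin m → ℝ), Function.Injective y ∧
      ∀ (p D : ℝ) (d : ℕ), 2 ≤ p → 0 < D → EmbedsInto p D y d →
        (k : ℝ) ^ (p / 2) / (81 * p ^ 2 * D) ^ p ≤ d) ∧
    (∀ (p D : ℝ) (n k : ℕ), 2 ≤ p → 1 < D → (k + 1) ^ k ≤ n →
      (k : ℝ) ^ (p / 2) / (81 * p ^ 2 * D) ^ p ≤ dimRed p n D) ∧
    (∀ (p D : ℝ) (n : ℕ), 2 ≤ p → 1 < D → 2 ≤ Real.log (Real.log n) →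
      ((⌊Real.log n / Real.log (Real.log n)⌋₊ : ℕ) : ℝ) ^ (p / 2) / (81 * p ^ 2 * D) ^ p
        ≤ dimRed p n D) :=
  ⟨fun n k h => exists_hard_set2 n k h,
    fun p D n k hp hD h => dimRed_lower2 p D hp hD n k h,
    fun p D n hp hD h => dimRed_lower_log p D hp hD n h⟩

end Vale.Agent.Results.P249.SuperLogAllP
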